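import Crest.Agent.R035.General
import Crest.Agent.R035.Data.D8
/-! The last nodes of the strategy (generated). -/
set_option autoImplicit false
set_option maxRecDepth 100000
namespace Crest.Agent.R035
open Crest.CombinatoricsR.PolyominoGame
noncomputable def g_12934 : GT 18 := GT.ofOk (slot b_18_0 (nat_lit 4096)) (k_18_0 _ ho_4) [(6, 7), (8, 7), (9, 7)] (by decide +kernel)
noncomputable def g_15361 : GT 17 := GT.ofOk (slot b_17_0 (nat_lit 11264)) (k_17_0 _ ho_11) [(4, 6), (6, 6), (7, 6)] (by decide +kernel)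
noncomputable def g_15790 : GT 17 := GT.ofOk (slot b_17_0 (nat_lit 12288)) (k_17_0 _ ho_12) [(4, 7), (6, 7), (7, 7)] (by decide +kernel)
noncomputable def g_19662 : GT 16 := GT.ofOk (slot b_16_0 (nat_lit 32768)) (k_16_0 _ ho_32) [(6, 5), (6, 7), (7, 7)] (by decide +kernel)
noncomputable def g_13256 : GT 13 := GT.ofOk (slot b_13_1 (nat_lit 43008)) (k_13_1 _ ho_42) [(4, 4), (4, 5), (5, 5)] (by decide +kernel)
noncomputable def g_13577 : GT 12 := GT.ofOk (slot b_12_2 (nat_lit 45056)) (k_12_2 _ ho_44) [(5, 5), (5, 6), (6, 6)] (by decide +kernel)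
noncomputable def g_13704 : GT 12 := GT.ofOk (slot b_12_2 (nat_lit 48128)) (k_12_2 _ ho_47) [(5, 5), (5, 6), (6, 6)] (by decide +kernel)
noncomputable def g_13725 : GT 12 := GT.ofOk (slot b_12_2 (nat_lit 49152)) (k_12_2 _ ho_48) [(5, 4), (5, 5), (6, 5)] (by decide +kernel)
noncomputable def g_14888 : GT 17 := GT.ofOk (slot b_17_0 (nat_lit 10240)) (k_17_0 _ ho_10) [(8, 6), (8, 7), (9, 7)] (by decide +kernel)
noncomputable def g_15800 : GT 16 := GT.ofOk (slot b_16_0 (nat_lit 21504)) (k_16_0 _ ho_21) [(5, 4), (5, 5), (6, 5)] (by decide +kernel)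
noncomputable def g_15906 : GT 14 := GT.ofOk (slot b_14_1 (nat_lit 21504)) (k_14_1 _ ho_21) [(5, 5), (5, 6), (6, 6)] (by decide +kernel)
noncomputable def g_15962 : GT 15 := GT.ofOk (slot b_15_0 (nat_lit 36864)) (k_15_0 _ ho_36) [(6, 5), (6, 6), (7, 6)] (by decide +kernel)
noncomputable def g_16153 : GT 15 := GT.ofOk (slot b_15_0 (nat_lit 38912)) (k_15_0 _ ho_38) [(7, 5), (7, 6), (8, 6)] (by decide +kernel)
noncomputable def g_16703 : GT 18 := GT.ofOk (slot b_18_0 (nat_lit 7168)) (k_18_0 _ ho_7) [(7, 6), (7, 7), (8, 7)] (by decide +kernel)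
noncomputable def g_16793 : GT 16 := GT.ofOk (slot b_16_0 (nat_lit 25600)) (k_16_0 _ ho_25) [(5, 4), (5, 5), (6, 5)] (by decide +kernel)
noncomputable def g_17061 : GT 16 := GT.ofOk (slot b_16_0 (nat_lit 26624)) (k_16_0 _ ho_26) [(6, 6), (6, 7), (7, 7)] (by decide +kernel)
noncomputable def g_17074 : GT 15 := GT.ofOk (slot b_15_0 (nat_lit 46080)) (k_15_0 _ ho_45) [(6, 5), (6, 6), (7, 6)] (by decide +kernel)
noncomputable def g_19421 : GT 17 := GT.ofOk (slot b_17_0 (nat_lit 17408)) (k_17_0 _ ho_17) [(8, 6), (8, 7), (9, 7)] (by decide +kernel)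
noncomputable def g_19958 : GT 16 := GT.ofOk (slot b_16_0 (nat_lit 34816)) (k_16_0 _ ho_34) [(5, 6), (5, 7), (6, 7)] (by decide +kernel)
noncomputable def g_13114 : GT 13 := GT.ofOk (slot b_13_1 (nat_lit 41984)) (k_13_1 _ ho_41) [(4, 6), (4, 7), (5, 6)] (by decide +kernel)
noncomputable def g_13418 : GT 14 := GT.ofOk (slot b_14_0 (nat_lit 61440)) (k_14_0 _ ho_60) [(5, 4), (5, 5), (6, 4)] (by decide +kernel)
noncomputable def g_13520 : GT 12 := GT.ofOk (slot b_12_2 (nat_lit 44032)) (k_12_2 _ ho_43) [(4, 4), (4, 5), (5, 4)] (by decide +kernel)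
noncomputable def g_13679 : GT 18 := GT.ofOk (slot b_18_0 (nat_lit 5120)) (k_18_0 _ ho_5) [(4, 4), (4, 5), (5, 4)] (by decide +kernel)
noncomputable def g_14389 : GT 17 := GT.ofOk (slot b_17_0 (nat_lit 9216)) (k_17_0 _ ho_9) [(8, 6), (8, 7), (9, 6)] (by decide +kernel)
noncomputable def g_15799 : GT 16 := GT.ofOk (slot b_16_0 (nat_lit 20480)) (k_16_0 _ ho_20) [(5, 6), (5, 7), (6, 6)] (by decide +kernel)
noncomputable def g_15847 : GT 14 := GT.ofOk (slot b_14_1 (nat_lit 20480)) (k_14_1 _ ho_20) [(5, 4), (5, 5), (6, 4)] (by decide +kernel)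
noncomputable def g_16078 : GT 17 := GT.ofOk (slot b_17_0 (nat_lit 13312)) (k_17_0 _ ho_13) [(6, 5), (6, 6), (7, 5)] (by decide +kernel)
noncomputable def g_16471 : GT 18 := GT.ofOk (slot b_18_0 (nat_lit 6144)) (k_18_0 _ ho_6) [(6, 5), (6, 6), (7, 5)] (by decide +kernel)
noncomputable def g_18286 : GT 17 := GT.ofOk (slot b_17_0 (nat_lit 16384)) (k_17_0 _ ho_16) [(8, 7), (8, 8), (9, 7)] (by decide +kernel)
noncomputable def g_19833 : GT 16 := GT.ofOk (slot b_16_0 (nat_lit 33792)) (k_16_0 _ ho_33) [(6, 6), (6, 7), (7, 6)] (by decide +kernel)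
noncomputable def g_13926 : GT 14 := GT.ofOk (slot b_14_0 (nat_lit 63488)) (k_14_0 _ ho_62) [(5, 7), (6, 5), (6, 7)] (by decide +kernel)
noncomputable def g_3873 : GT 15 := GT.ofOk (slot b_15_0 (nat_lit 6144)) (k_15_0 _ ho_6) [(5, 5), (5, 6)] (by decide +kernel)
noncomputable def g_8753 : GT 16 := GT.ofOk (slot b_16_0 (nat_lit 9216)) (k_16_0 _ ho_9) [(5, 5), (5, 6)] (by decide +kernel)
noncomputable def g_3991 : GT 17 := GT.ofOk (slot b_17_0 (nat_lit 2048)) (k_17_0 _ ho_2) [(5, 4), (5, 5)] (by decide +kernel)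
noncomputable def g_3539 : GT 19 := GT.ofOk (slot b_19_0 (nat_lit 1024)) (k_19_0 _ ho_1) [(6, 6), (6, 7)] (by decide +kernel)
noncomputable def g_7526 : GT 19 := GT.ofOk (slot b_19_0 (nat_lit 3072)) (k_19_0 _ ho_3) [(7, 6), (7, 7)] (by decide +kernel)
noncomputable def g_2532 : GT 19 := GT.ofOk (slot b_19_0 (nat_lit 0)) (k_19_0 _ ho_0) [(6, 5), (7, 7)] (by decide +kernel)
noncomputable def g_8581 : GT 17 := GT.ofOk (slot b_17_0 (nat_lit 5120)) (k_17_0 _ ho_5) [(7, 6), (7, 7)] (by decide +kernel)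
noncomputable def g_6540 : GT 19 := GT.ofOk (slot b_19_0 (nat_lit 2048)) (k_19_0 _ ho_2) [(7, 6), (7, 7)] (by decide +kernel)
noncomputable def t_19959 : Th 18 := ⟨(g_13725.up le_12_18).place false false false (3, 2), (8, 6)⟩
noncomputable def ts_19959 : List (Th 18) := [
  ⟨(g_13256.up le_13_18).place false false false (4, 2), (8, 6)⟩,
  ⟨(g_13679.up le_18_18).place false false false (4, 3), (8, 8)⟩,
  ⟨(g_13520.up le_12_18).place false false false (4, 3), (8, 8)⟩,
  ⟨(g_13418.up le_14_18).place false false false (3, 3), (8, 8)⟩,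
  ⟨(g_13704.up le_12_18).place false false false (3, 1), (8, 6)⟩,
  ⟨(g_13577.up le_12_18).place false false false (3, 1), (8, 6)⟩,
  ⟨(g_13114.up le_13_18).place false false false (4, 1), (8, 8)⟩,
  ⟨(g_16793.up le_16_18).place false false false (3, 2), (8, 6)⟩,
  ⟨(g_15906.up le_14_18).place false false false (3, 1), (8, 6)⟩,
  ⟨(g_15847.up le_14_18).place false false false (3, 3), (8, 8)⟩,
  ⟨(g_15800.up le_16_18).place false false false (3, 2), (8, 6)⟩,
  ⟨(g_17074.up le_15_18).place false false false (2, 1), (8, 6)⟩,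
  ⟨(g_15799.up le_16_18).place false false false (3, 1), (8, 8)⟩,
  ⟨(g_13926.up le_14_18).place false false false (3, 0), (9, 5)⟩,
  ⟨(g_16153.up le_15_18).place false false false (1, 1), (8, 6)⟩,
  ⟨(g_15962.up le_15_18).place false false false (2, 1), (8, 6)⟩,
  ⟨(g_16078.up le_17_18).place false false false (2, 2), (8, 8)⟩,
  ⟨(g_16703.up le_18_18).place false false false (1, 0), (8, 6)⟩,
  ⟨(g_17061.up le_16_18).place false false false (2, 0), (8, 6)⟩,
  ⟨(g_19958.up le_16_18).place false false false (3, 0), (8, 6)⟩,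
  ⟨(g_16471.up le_18_18).place false false false (2, 2), (8, 8)⟩,
  ⟨(g_19833.up le_16_18).place false false false (2, 1), (8, 8)⟩,
  ⟨(g_15361.up le_17_18).place false false false (2, 1), (6, 7)⟩,
  ⟨(g_15790.up le_17_18).place false false false (2, 0), (6, 7)⟩,
  ⟨(g_14389.up le_17_18).place false false false (0, 1), (8, 8)⟩,
  ⟨(g_19662.up le_16_18).place false false false (2, 0), (8, 5)⟩,
  ⟨(g_14888.up le_17_18).place false false false (0, 0), (8, 6)⟩,
  ⟨(g_19421.up le_17_18).place false false false (0, 0), (8, 6)⟩,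
  ⟨(g_18286.up le_17_18).place false false false (0, 0), (8, 8)⟩,
  ⟨(g_12934.up le_18_18).place false false false (0, 0), (6, 7)⟩,
  ⟨(g_12934.up le_18_18).place false true false (0, 14), (6, 7)⟩]
noncomputable def G_19959 : GT 19 := GT.and [(8, 7), (9, 7)] t_19959 ts_19959 (by decide +kernel) (by decide +kernel)
noncomputable def t_19960 : Th 19 := ⟨(g_3873.up le_15_19).place false false false (-5, -6), (0, -1)⟩
noncomputable def ts_19960 : List (Th 19) := [
  ⟨(g_3873.up le_15_19).place true true false (5, 6), (0, 1)⟩,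
  ⟨(g_3873.up le_15_19).place true false true (-6, 5), (-1, 0)⟩,
  ⟨(g_3873.up le_15_19).place false true true (6, -5), (1, 0)⟩,
  ⟨(g_3991.up le_17_19).place false false false (-5, -5), (0, -1)⟩,
  ⟨(g_3991.up le_17_19).place true false false (5, -5), (0, -1)⟩,
  ⟨(g_3991.up le_17_19).place false true false (-5, 5), (0, 1)⟩,
  ⟨(g_3991.up le_17_19).place true true false (5, 5), (0, 1)⟩,
  ⟨(g_3991.up le_17_19).place false false true (-5, -5), (-1, 0)⟩,
  ⟨(g_3991.up le_17_19).place true false true (-5, 5), (-1, 0)⟩,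
  ⟨(g_3991.up le_17_19).place false true true (5, -5), (1, 0)⟩,
  ⟨(g_3991.up le_17_19).place true true true (5, 5), (1, 0)⟩,
  ⟨(g_8753.up le_16_19).place false false false (-5, -6), (0, -1)⟩,
  ⟨(g_8753.up le_16_19).place true true false (5, 6), (0, 1)⟩,
  ⟨(g_8753.up le_16_19).place true false true (-6, 5), (-1, 0)⟩,
  ⟨(g_8753.up le_16_19).place false true true (6, -5), (1, 0)⟩,
  ⟨(g_3539.up le_19_19).place false false false (-6, -7), (0, -1)⟩,
  ⟨(g_3539.up le_19_19).place true false false (6, -7), (0, -1)⟩,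
  ⟨(g_3539.up le_19_19).place false true false (-6, 7), (0, 1)⟩,
  ⟨(g_3539.up le_19_19).place true true false (6, 7), (0, 1)⟩,
  ⟨(g_3539.up le_19_19).place false false true (-7, -6), (-1, 0)⟩,
  ⟨(g_3539.up le_19_19).place true false true (-7, 6), (-1, 0)⟩,
  ⟨(g_3539.up le_19_19).place false true true (7, -6), (1, 0)⟩,
  ⟨(g_3539.up le_19_19).place true true true (7, 6), (1, 0)⟩,
  ⟨(g_7526.up le_19_19).place false false false (-7, -7), (0, -1)⟩,
  ⟨(g_7526.up le_19_19).place true false false (7, -7), (0, -1)⟩,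
  ⟨(g_7526.up le_19_19).place false false true (-7, -7), (-1, 0)⟩,
  ⟨(g_7526.up le_19_19).place true false true (-7, 7), (-1, 0)⟩,
  ⟨(g_2532.up le_19_19).place false false false (-7, -7), (-1, -2)⟩,
  ⟨(g_2532.up le_19_19).place true false false (7, -7), (1, -2)⟩,
  ⟨(g_2532.up le_19_19).place false false true (-7, -7), (-2, -1)⟩,
  ⟨(g_2532.up le_19_19).place true false true (-7, 7), (-2, 1)⟩,
  ⟨(g_8581.up le_17_19).place false false false (-7, -7), (0, -1)⟩,
  ⟨(g_8581.up le_17_19).place true false false (7, -7), (0, -1)⟩,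
  ⟨(g_8581.up le_17_19).place false true false (-7, 7), (0, 1)⟩,
  ⟨(g_8581.up le_17_19).place true true false (7, 7), (0, 1)⟩,
  ⟨(g_8581.up le_17_19).place false false true (-7, -7), (-1, 0)⟩,
  ⟨(g_8581.up le_17_19).place true false true (-7, 7), (-1, 0)⟩,
  ⟨(g_8581.up le_17_19).place false true true (7, -7), (1, 0)⟩,
  ⟨(g_8581.up le_17_19).place true true true (7, 7), (1, 0)⟩,
  ⟨(g_6540.up le_19_19).place false false false (-7, -7), (0, -1)⟩,
  ⟨(g_6540.up le_19_19).place true false false (7, -7), (0, -1)⟩,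
  ⟨(g_6540.up le_19_19).place false true false (-7, 7), (0, 1)⟩,
  ⟨(g_6540.up le_19_19).place true true false (7, 7), (0, 1)⟩,
  ⟨(G_19959.up le_19_19).place false false false (-9, -7), (-1, 0)⟩,
  ⟨(G_19959.up le_19_19).place true false false (9, -7), (1, 0)⟩,
  ⟨(G_19959.up le_19_19).place false false true (-7, -9), (0, -1)⟩,
  ⟨(G_19959.up le_19_19).place true false true (-7, 9), (0, 1)⟩]
noncomputable def G_19960 : GT 20 := GT.and [(0, 0)] t_19960 ts_19960 (by decide +kernel) (by decide +kernel)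
theorem root_tmpl : Tmpl {0} Set.univ 20 :=
  GT.final (G_19960.up le_20_20) rfl
end Crest.Agent.R035
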